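import Mathlib

/-!
# P052.TetrahedraInFour: the real inequality RCAP
-/

namespace Vale.Agent.P052.R3.H760

/-- the inequality in the normalised variables -/
lemma cap_core {x y h k R R' : ℝ} (hx : 0 < x) (hx1 : x < 1) (hy : 0 < y) (hy1 : y < 1)
    (hh : 0 ≤ h) (hk : 0 ≤ k) (hR : 0 < R) (hR' : 0 < R')
    (h4 : (2 / 25) * (1 + h + k) ≤ 2 * (R * R')) (a0 : 2 * (R * R') ≤ 4 * (x * y))
    (a2 : 2 + h + k + 2 * (R * R') ≤ 4 * ((1 - x) * (1 - y)))
    (a3 : 2 + 2 * (R + R') ^ 2 ≤ h ^ 2 + k ^ 2 + 4 * (1 - x - y) ^ 2) : False := by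
  obtain ⟨g, hg0, hg⟩ : ∃ g : ℝ, 0 ≤ g ∧ g ^ 2 = 2 * (R * R') :=
    ⟨Real.sqrt (2 * (R * R')), Real.sqrt_nonneg _, Real.sq_sqrt (by positivity)⟩
  have hRR : 0 < R * R' := mul_pos hR hR'
  have hs : g ≤ x + y := by
    have e : (x + y) ^ 2 = 4 * (x * y) + (x - y) ^ 2 := by ring
    refine (abs_le_of_sq_le_sq' ?_ (by linarith)).2
    rw [e]
    linarith [sq_nonneg (x - y)]
  have hs2 : 2 + (h + k) + g ^ 2 ≤ (2 - (x + y)) ^ 2 := by
    have e : 4 * ((1 - x) * (1 - y)) = (2 - (x + y)) ^ 2 - (x - y) ^ 2 := by ring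
    rw [e] at a2
    linarith [sq_nonneg (x - y)]
  have hs3 : (2 - (x + y)) ^ 2 ≤ (2 - g) ^ 2 :=
    pow_le_pow_left₀ (by linarith) (by linarith) 2
  have hσ : h + k ≤ 2 - 4 * g := by
    have e : (2 - g) ^ 2 = 4 - 4 * g + g ^ 2 := by ring
    linarith
  have hxy : x + y ≤ 1 := by
    by_contra hc
    push Not at hc
    have e : (2 - (x + y)) ^ 2 ≤ 1 := pow_le_one₀ (by linarith) (by linarith)
    linarith [sq_nonneg g]
  have h5 : (1 - x - y) ^ 2 ≤ (1 - g) ^ 2 :=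
    pow_le_pow_left₀ (by linarith) (by linarith) 2
  have h6 : 8 * g - 2 ≤ (h + k) ^ 2 := by
    have e1 : (R + R') ^ 2 = 4 * (R * R') + (R - R') ^ 2 := by ring
    have e2 : (1 - g) ^ 2 = 1 - 2 * g + g ^ 2 := by ring
    have e3 : (h + k) ^ 2 = h ^ 2 + k ^ 2 + 2 * (h * k) := by ring
    rw [e1] at a3
    rw [e3]
    rw [e2] at h5
    linarith [sq_nonneg (R - R'), mul_nonneg hh hk]
  have h7 : h + k ≤ 25 / 2 * g ^ 2 - 1 := by linarith
  have hσ0 : 0 ≤ h + k := by linarith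
  have h9 : (282 : ℝ) / 1000 < g := by
    by_contra hc
    push Not at hc
    have e := pow_le_pow_left₀ hg0 hc 2
    norm_num at e
    linarith
  rcases le_or_gt g (33 / 100) with h10 | h10
  · have e := pow_le_pow_left₀ hg0 h10 2
    have h11 : h + k ≤ 37 / 100 := by
      norm_num at e
      linarith
    have e2 := pow_le_pow_left₀ hσ0 h11 2
    norm_num at e2
    linarith
  · have h11 : h + k ≤ 68 / 100 := by linarith
    have e2 := pow_le_pow_left₀ hσ0 h11 2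
    norm_num at e2
    linarith

theorem real_cap {A B κ ω z z' E : ℝ} (hA1 : A ≤ 1) (hB1 : B ≤ 1) (hκA : κ < A) (hωB : ω < B)
    (hκ : -(1/4) ≤ κ) (hω : -(1/4) ≤ ω) (hz : 1/5 ≤ z) (hz' : 1/5 ≤ z')
    (hSA : 1 - 2 * z ^ 2 + 4 * κ ^ 2 ≤ (1 + 4 * κ) ^ 2)
    (hSB : 1 - 2 * z' ^ 2 + 4 * ω ^ 2 ≤ (1 + 4 * ω) ^ 2) (h0 : 0 ≤ E)
    (h2 : A * (1 + 4 * ω) + B * (1 + 4 * κ) - 4 * (A * B) ≤ E)
    (h3 : 0 ≤ B ^ 2 * (1 - 2 * z ^ 2 + 4 * κ ^ 2) + A ^ 2 * (1 - 2 * z' ^ 2 + 4 * ω ^ 2) +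
      2 * (A * B) * E - 2 * (A * B ^ 2) * (1 + 4 * κ) - 2 * (A ^ 2 * B) * (1 + 4 * ω) +
      4 * (A ^ 2 * B ^ 2)) :
    4 * (κ * ω) < E + 2 * (z * z') := by
  have hz0 : 0 < z := by linarith
  have hz0' : 0 < z' := by linarith
  have hzz : 0 < z * z' := mul_pos hz0 hz0'
  rcases le_or_gt (κ * ω) 0 with h | h
  · linarith
  rcases le_or_gt κ 0 with hk | hk
  · have hκ0 : κ < 0 := lt_of_le_of_ne hk (by rintro rfl; simp at h)
    have hω0 : ω < 0 := by
      by_contra hc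
      push Not at hc
      have := mul_nonpos_of_nonpos_of_nonneg hκ0.le hc
      linarith
    have key : ∀ t w : ℝ, -(1 / 4) ≤ t → t < 0 →
        1 - 2 * w ^ 2 + 4 * t ^ 2 ≤ (1 + 4 * t) ^ 2 → -(5 / 2) * t ≤ w ^ 2 := by
      intro t w h1 h2 h3
      have h4 : 0 ≤ (-t) * (1 + 4 * t) := mul_nonneg (by linarith) (by linarith)
      nlinarith
    have e1 := key κ z hκ hκ0 hSA
    have e2 := key ω z' hω hω0 hSB
    have e3 : (-(5 / 2) * κ) * (-(5 / 2) * ω) ≤ z ^ 2 * z' ^ 2 :=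
      mul_le_mul e1 e2 (by linarith) (by positivity)
    by_contra hc
    push Not at hc
    have e4 : z * z' ≤ 2 * (κ * ω) := by linarith
    have e5 : (z * z') ^ 2 ≤ (2 * (κ * ω)) ^ 2 := by
      exact pow_le_pow_left₀ hzz.le e4 2
    have e6 : κ * ω ≤ 1 / 16 := by
      have := mul_le_mul (show -κ ≤ 1 / 4 by linarith) (show -ω ≤ 1 / 4 by linarith)
        (by linarith) (by norm_num)
      linarith
    have e7 : (κ * ω) * (κ * ω) ≤ 1 / 16 * (κ * ω) := mul_le_mul_of_nonneg_right e6 h.le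
    have e8 : z ^ 2 * z' ^ 2 = (z * z') ^ 2 := by ring
    have e9 : (-(5 / 2) * κ) * (-(5 / 2) * ω) = 25 / 4 * (κ * ω) := by ring
    have e10 : (2 * (κ * ω)) ^ 2 = 4 * ((κ * ω) * (κ * ω)) := by ring
    rw [e8, e9] at e3
    rw [e10] at e5
    linarith
  · have hω0 : 0 < ω := by
      by_contra hc
      push Not at hc
      have := mul_nonpos_of_nonneg_of_nonpos hk.le hc
      linarith
    have hA : 0 < A := by linarith
    have hB : 0 < B := by linarith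
    by_contra hc
    push Not at hc
    have hAB : 0 < A * B := mul_pos hA hB
    have hAi : 1 ≤ 1 / A := by rw [le_div_iff₀ hA]; linarith
    have hBi : 1 ≤ 1 / B := by rw [le_div_iff₀ hB]; linarith
    refine cap_core (x := κ / A) (y := ω / B) (h := 1 / A - 1) (k := 1 / B - 1) (R := z / A)
      (R' := z' / B) (by positivity) ((div_lt_one hA).2 hκA) (by positivity)
      ((div_lt_one hB).2 hωB) (by linarith) (by linarith) (by positivity) (by positivity)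
      ?_ ?_ ?_ ?_
    · have e1 : 1 / 5 * (1 / A) ≤ z / A := by
        rw [mul_one_div]
        exact div_le_div_of_nonneg_right hz hA.le
      have e2 : 1 / 5 * (1 / B) ≤ z' / B := by
        rw [mul_one_div]
        exact div_le_div_of_nonneg_right hz' hB.le
      have e3 : (1 / 5 * (1 / A)) * (1 / 5 * (1 / B)) ≤ z / A * (z' / B) :=
        mul_le_mul e1 e2 (by positivity) (by positivity)
      have e4 := mul_nonneg (sub_nonneg.2 hAi) (sub_nonneg.2 hBi)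
      have e5 : (1 / A - 1) * (1 / B - 1) = 1 / A * (1 / B) - 1 / A - 1 / B + 1 := by ring
      have e6 : (1 / 5 * (1 / A)) * (1 / 5 * (1 / B)) = 1 / 25 * (1 / A * (1 / B)) := by ring
      rw [e5] at e4
      rw [e6] at e3
      linarith
    · have e : 4 * (κ / A * (ω / B)) - 2 * (z / A * (z' / B)) =
          (4 * (κ * ω) - 2 * (z * z')) / (A * B) := by
        field_simp
      have : 0 ≤ (4 * (κ * ω) - 2 * (z * z')) / (A * B) := div_nonneg (by linarith) hAB.le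
      linarith
    · have e : 4 * ((1 - κ / A) * (1 - ω / B)) - (2 + (1 / A - 1) + (1 / B - 1) +
          2 * (z / A * (z' / B))) =
          ((4 * (κ * ω) - 2 * (z * z')) - (A * (1 + 4 * ω) + B * (1 + 4 * κ) - 4 * (A * B))) /
            (A * B) := by
        field_simp
        ring
      have : 0 ≤ ((4 * (κ * ω) - 2 * (z * z')) -
          (A * (1 + 4 * ω) + B * (1 + 4 * κ) - 4 * (A * B))) / (A * B) :=
        div_nonneg (by linarith) hAB.le
      linarith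
    · have e : (1 / A - 1) ^ 2 + (1 / B - 1) ^ 2 + 4 * (1 - κ / A - ω / B) ^ 2 -
          (2 + 2 * (z / A + z' / B) ^ 2) =
          (B ^ 2 * (1 - 2 * z ^ 2 + 4 * κ ^ 2) + A ^ 2 * (1 - 2 * z' ^ 2 + 4 * ω ^ 2) +
            2 * (A * B) * (4 * (κ * ω) - 2 * (z * z')) - 2 * (A * B ^ 2) * (1 + 4 * κ) -
            2 * (A ^ 2 * B) * (1 + 4 * ω) + 4 * (A ^ 2 * B ^ 2)) / (A ^ 2 * B ^ 2) := by
        field_simp
        ring
      have e2 : 2 * (A * B) * E ≤ 2 * (A * B) * (4 * (κ * ω) - 2 * (z * z')) :=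
        mul_le_mul_of_nonneg_left (by linarith) (by positivity)
      have : 0 ≤ (B ^ 2 * (1 - 2 * z ^ 2 + 4 * κ ^ 2) + A ^ 2 * (1 - 2 * z' ^ 2 + 4 * ω ^ 2) +
            2 * (A * B) * (4 * (κ * ω) - 2 * (z * z')) - 2 * (A * B ^ 2) * (1 + 4 * κ) -
            2 * (A ^ 2 * B) * (1 + 4 * ω) + 4 * (A ^ 2 * B ^ 2)) / (A ^ 2 * B ^ 2) :=
        div_nonneg (by linarith) (by positivity)
      linarith

end Vale.Agent.P052.R3.H760
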