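import Mathlib

/-!
# P052.TetrahedraInFour: the real inequality RCELL
-/

namespace Vale.Agent.P052.R3.H760

lemma cell_one {A κ z : ℝ} (hκ : -(1/4) < κ) (hz1 : -(1/2) ≤ z) (hz2 : z ≤ 1/5)
    (hCA : 1 - 2 * z ^ 2 + 4 * κ ^ 2 ≤ A * (1 + 4 * κ)) :
    0 < A ∧ 1 - 2 * z ^ 2 ≤ A ^ 2 + A ∧ (κ < 0 → 1 - 2 * z ^ 2 < A) ∧ z ^ 2 ≤ 1 / 4 := by
  have hz : z ^ 2 ≤ 1 / 4 := by nlinarith
  have hpos : 0 < A * (1 + 4 * κ) := by
    have := sq_nonneg κ
    linarith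
  have hA : 0 < A := (mul_pos_iff_of_pos_right (by linarith)).1 hpos
  refine ⟨hA, ?_, fun h => ?_, hz⟩
  · have e : (A - 2 * κ) ^ 2 = A ^ 2 - 4 * (A * κ) + 4 * κ ^ 2 := by ring
    have e1 := sq_nonneg (A - 2 * κ)
    have e2 : A * (1 + 4 * κ) = A + 4 * (A * κ) := by ring
    linarith
  · have e2 : A * (1 + 4 * κ) = A + 4 * (A * κ) := by ring
    have e3 : A * κ < 0 := mul_neg_of_pos_of_neg hA h
    linarith [sq_nonneg κ]

lemma low_one {A : ℝ} (hA : 0 < A) (h : 1 / 2 ≤ A ^ 2 + A) : 366 / 1000 < A := by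
  by_contra hc
  push Not at hc
  have e := pow_le_pow_left₀ hA.le hc 2
  norm_num at e
  linarith

lemma low_two {A : ℝ} (hA : 0 < A) (h : 23 / 25 ≤ A ^ 2 + A) : 581 / 1000 < A := by
  by_contra hc
  push Not at hc
  have e := pow_le_pow_left₀ hA.le hc 2
  norm_num at e
  linarith

/-- the case in which both `κ` and `ω` are positive, abstractly -/
lemma cell_pos {A B κ ω τ E : ℝ} (hA : 0 < A) (hB : 0 < B) (hA1 : A ≤ 1) (hB1 : B ≤ 1)
    (hκA : κ < A) (hωB : ω < B) (hκ : 0 < κ) (hω : 0 < ω)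
    (hτ : 0 ≤ τ ∨ (-(1/5) ≤ τ ∧ (46 / 100) ^ 2 ≤ A * B))
    (h1 : A * B ≤ E) (h2 : A * (1 + 4 * ω) + B * (1 + 4 * κ) - 4 * (A * B) ≤ E) :
    4 * (κ * ω) < E + τ := by
  by_contra hc
  push Not at hc
  have hAB : 0 < A * B := mul_pos hA hB
  obtain ⟨u, hu⟩ : ∃ u, u = 4 * (κ * ω) := ⟨_, rfl⟩
  obtain ⟨v, hv⟩ : ∃ v, v = 4 * ((A - κ) * (B - ω)) := ⟨_, rfl⟩
  have hu1 : A * B + τ ≤ u := by rw [hu]; linarith
  have hv1 : A + B + τ ≤ v := by
    have e : v = 4 * (A * B) - 4 * (A * ω) - 4 * (B * κ) + u := by rw [hv, hu]; ring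
    rw [e]
    linarith
  have hw : (4 * (A * B) - u - v) ^ 2 = 4 * (u * v) +
      16 * (κ * (B - ω) - ω * (A - κ)) ^ 2 := by
    rw [hu, hv]
    ring
  have hw0 : 0 ≤ 4 * (A * B) - u - v := by
    have e : 4 * (A * B) - u - v = 4 * (κ * (B - ω)) + 4 * (ω * (A - κ)) := by
      rw [hu, hv]; ring
    rw [e]
    have := mul_pos hκ (sub_pos.2 hωB)
    have := mul_pos hω (sub_pos.2 hκA)
    linarith
  have hw1 : 4 * (u * v) ≤ (4 * (A * B) - u - v) ^ 2 := by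
    rw [hw]
    linarith [sq_nonneg (κ * (B - ω) - ω * (A - κ))]
  have hAB1 : A * B ≤ A := mul_le_of_le_one_right hA.le hB1
  have hAB2 : A * B ≤ B := mul_le_of_le_one_left hB.le hA1
  rcases hτ with hτ | ⟨hτ, hP⟩
  · have e1 : A * B ≤ u := by linarith
    have e2 : 2 * (A * B) ≤ v := by linarith
    have e3 : 4 * (A * B) - u - v ≤ A * B := by linarith
    have e4 := pow_le_pow_left₀ hw0 e3 2
    have e5 : (A * B) * (2 * (A * B)) ≤ u * v :=
      mul_le_mul e1 e2 (by positivity) (by linarith)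
    have e6 : 0 < (A * B) * (A * B) := mul_pos hAB hAB
    have e7 : (A * B) ^ 2 = (A * B) * (A * B) := by ring
    have e8 : (A * B) * (2 * (A * B)) = 2 * ((A * B) * (A * B)) := by ring
    rw [e7] at e4
    rw [e8] at e5
    linarith
  · obtain ⟨P, hP0, hP2⟩ : ∃ P : ℝ, 0 ≤ P ∧ P ^ 2 = A * B :=
      ⟨Real.sqrt (A * B), Real.sqrt_nonneg _, Real.sq_sqrt hAB.le⟩
    have hPl : 46 / 100 ≤ P := by
      refine (abs_le_of_sq_le_sq' ?_ hP0).2
      rw [hP2]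
      exact hP
    have hP1 : P ≤ 1 := by
      refine (abs_le_of_sq_le_sq' ?_ zero_le_one).2
      rw [hP2]
      linarith
    have hPs : 2 * P ≤ A + B := by
      refine (abs_le_of_sq_le_sq' ?_ (by linarith)).2
      have e : (A + B) ^ 2 = 4 * (A * B) + (A - B) ^ 2 := by ring
      have e' : (2 * P) ^ 2 = 4 * P ^ 2 := by ring
      rw [e, e', hP2]
      linarith [sq_nonneg (A - B)]
    rw [← hP2] at hu1 hw0 hw1
    have e1 : P ^ 2 - 1 / 5 ≤ u := by linarith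
    have e2 : 2 * P - 1 / 5 ≤ v := by linarith
    have e3 : 4 * P ^ 2 - u - v ≤ 3 * P ^ 2 - 2 * P + 2 / 5 := by linarith
    have e4 := pow_le_pow_left₀ hw0 e3 2
    have e5 : (P ^ 2 - 1 / 5) * (2 * P - 1 / 5) ≤ u * v := by
      have e6 : 0 ≤ P ^ 2 - 1 / 5 := by
        rw [hP2]
        norm_num at hP ⊢
        linarith
      exact mul_le_mul e1 e2 (by linarith) (by linarith)
    have e7 : 4 * ((P ^ 2 - 1 / 5) * (2 * P - 1 / 5)) - (3 * P ^ 2 - 2 * P + 2 / 5) ^ 2 =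
        P ^ 2 * (20 * P - 9 * P ^ 2 - 36 / 5) := by ring
    have e8 : 0 < 20 * P - 9 * P ^ 2 - 36 / 5 := by
      have := mul_nonneg (sub_nonneg.2 hPl) (sub_nonneg.2 hP1)
      have e9 : (P - 46 / 100) * (1 - P) = 146 / 100 * P - P ^ 2 - 46 / 100 := by ring
      rw [e9] at this
      linarith
    have e10 : 0 < P ^ 2 := by rw [hP2]; exact hAB
    have e11 := mul_pos e10 e8
    linarith

theorem real_cell {A B κ ω z z' E : ℝ} (hA1 : A ≤ 1) (hB1 : B ≤ 1) (hκA : κ < A) (hωB : ω < B)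
    (hκ : -(1/4) < κ) (hω : -(1/4) < ω) (hz1 : -(1/2) ≤ z) (hz2 : z ≤ 1/5)
    (hz'1 : -(1/2) ≤ z') (hz'2 : z' ≤ 1/5)
    (hCA : 1 - 2 * z ^ 2 + 4 * κ ^ 2 ≤ A * (1 + 4 * κ))
    (hCB : 1 - 2 * z' ^ 2 + 4 * ω ^ 2 ≤ B * (1 + 4 * ω)) (h1 : A * B ≤ E)
    (h2 : A * (1 + 4 * ω) + B * (1 + 4 * κ) - 4 * (A * B) ≤ E) :
    4 * (κ * ω) < E + 2 * (z * z') := by
  obtain ⟨hA, a1, a2, a3⟩ := cell_one hκ hz1 hz2 hCA
  obtain ⟨hB, b1, b2, b3⟩ := cell_one hω hz'1 hz'2 hCB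
  have hAB : 0 < A * B := mul_pos hA hB
  -- the bounds when the product is negative
  have hneg : ∀ {A B z z' : ℝ}, 0 < A → 0 < B → 1 - 2 * z ^ 2 ≤ A ^ 2 + A →
      1 - 2 * z' ^ 2 ≤ B ^ 2 + B → z ^ 2 ≤ 1 / 4 → -(1/2) ≤ z → z ≤ 0 → 0 ≤ z' → z' ≤ 1/5 →
      (46 / 100) ^ 2 ≤ A * B ∧ -(1/5) ≤ 2 * (z * z') ∧ z' ^ 2 ≤ 1 / 25 := by
    intro A B z z' hA hB a1 b1 a3 hz1 hz0 hz0' hz2'
    have e := pow_le_pow_left₀ hz0' hz2' 2
    have e' : z' ^ 2 ≤ 1 / 25 := by norm_num at e ⊢; linarith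
    have c1 := low_one hA (by linarith)
    have c2 := low_two hB (by linarith)
    have c3 := mul_le_mul c1.le c2.le (by norm_num) hA.le
    have c4 := mul_le_mul (show -z ≤ 1 / 2 by linarith) hz2' hz0' (by norm_num)
    refine ⟨?_, by linarith, e'⟩
    norm_num at c3 ⊢
    linarith
  have hcase : 0 ≤ z * z' ∨ (-(1/5) ≤ 2 * (z * z') ∧ (46 / 100) ^ 2 ≤ A * B ∧
      (z' ^ 2 ≤ 1 / 25 ∨ z ^ 2 ≤ 1 / 25)) := by
    rcases le_or_gt z 0 with h | h <;> rcases le_or_gt z' 0 with h' | h'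
    · exact Or.inl (mul_nonneg_of_nonpos_of_nonpos h h')
    · obtain ⟨c1, c2, c3⟩ := hneg hA hB a1 b1 a3 hz1 h h'.le hz'2
      exact Or.inr ⟨c2, c1, Or.inl c3⟩
    · obtain ⟨c1, c2, c3⟩ := hneg hB hA b1 a1 b3 hz'1 h' h.le hz2
      rw [mul_comm z' z] at c2
      rw [mul_comm B A] at c1
      exact Or.inr ⟨c2, c1, Or.inr c3⟩
    · exact Or.inl (mul_pos h h').le
  rcases le_or_gt (κ * ω) 0 with h | h
  · rcases hcase with hc | ⟨c1, c2, -⟩
    · linarith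
    · norm_num at c2
      linarith
  rcases le_or_gt κ 0 with hk | hk
  · have hκ0 : κ < 0 := lt_of_le_of_ne hk (by rintro rfl; simp at h)
    have hω0 : ω < 0 := by
      by_contra hc
      push Not at hc
      have := mul_nonpos_of_nonpos_of_nonneg hκ0.le hc
      linarith
    have d1 := a2 hκ0
    have d2 := b2 hω0
    have d3 : κ * ω ≤ 1 / 16 := by
      have := mul_le_mul (show -κ ≤ 1 / 4 by linarith) (show -ω ≤ 1 / 4 by linarith)
        (by linarith) (by norm_num)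
      linarith
    rcases hcase with hc | ⟨c1, c2, c3 | c3⟩
    · have := mul_lt_mul'' (show (1 : ℝ) / 2 < A by linarith) (show (1 : ℝ) / 2 < B by linarith)
        (by norm_num) (by norm_num)
      linarith
    · have := mul_lt_mul'' (show (1 : ℝ) / 2 < A by linarith)
        (show (23 : ℝ) / 25 < B by linarith) (by norm_num) (by norm_num)
      linarith
    · have := mul_lt_mul'' (show (23 : ℝ) / 25 < A by linarith)
        (show (1 : ℝ) / 2 < B by linarith) (by norm_num) (by norm_num)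
      linarith
  · have hω0 : 0 < ω := by
      by_contra hc
      push Not at hc
      have := mul_nonpos_of_nonneg_of_nonpos hk.le hc
      linarith
    refine cell_pos hA hB hA1 hB1 hκA hωB hk hω0 ?_ h1 h2
    rcases hcase with hc | ⟨c1, c2, -⟩
    · exact Or.inl (by linarith)
    · exact Or.inr ⟨c1, c2⟩

end Vale.Agent.P052.R3.H760
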